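import Mathlib

/-!
A variable version of the Lovász local lemma on a uniform finite product space, proved by a
counting induction, and a consequence on balanced two-colourings.
-/

set_option autoImplicit false

namespace Crest.Agent.Lib.LocalLemma

open Finset

variable {V α : Type*} [Fintype V] [DecidableEq V] [Fintype α] [DecidableEq α]

/-- Independence of events depending on disjoint sets of coordinates. -/
theorem card_inter_mul (S : Finset V) (A B : Finset (V → α))
    (hA : ∀ f g : V → α, (∀ v, v ∉ S → f v = g v) → f ∈ A → g ∈ A)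
    (hB : ∀ f g : V → α, (∀ v ∈ S, f v = g v) → f ∈ B → g ∈ B) :
    (A ∩ B).card * Fintype.card (V → α) = A.card * B.card := by
  rw [← Finset.card_univ, ← Finset.card_product, ← Finset.card_product]
  refine Finset.card_bij' (fun x _ => (S.piecewise x.2 x.1, S.piecewise x.1 x.2))
    (fun x _ => (S.piecewise x.2 x.1, S.piecewise x.1 x.2)) ?_ ?_ ?_ ?_
  · rintro ⟨f, g⟩ h
    simp only [mem_product, mem_inter, mem_univ, and_true] at h ⊢
    refine ⟨hA f _ (fun v hv => ?_) h.1, hB f _ (fun v hv => ?_) h.2⟩
    · simp [Finset.piecewise, hv]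
    · simp [Finset.piecewise, hv]
  · rintro ⟨f, g⟩ h
    simp only [mem_product, mem_inter, mem_univ, and_true] at h ⊢
    refine ⟨hA f _ (fun v hv => ?_) h.1, hB g _ (fun v hv => ?_) h.2⟩
    · simp [Finset.piecewise, hv]
    · simp [Finset.piecewise, hv]
  · rintro ⟨f, g⟩ _
    ext v <;> by_cases hv : v ∈ S <;> simp [Finset.piecewise, hv]
  · rintro ⟨f, g⟩ _
    ext v <;> by_cases hv : v ∈ S <;> simp [Finset.piecewise, hv]

open Classical in
/-- The assignments avoiding all the events supported inside `U`. -/
noncomputable def good {ι : Type*} (I : Finset ι) (S : ι → Finset V) (bad : ι → Finset (V → α))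
    (U : Finset V) : Finset (V → α) :=
  univ.filter (fun g => ∀ i ∈ I, S i ⊆ U → g ∉ bad i)

theorem mem_good {ι : Type*} {I : Finset ι} {S : ι → Finset V} {bad : ι → Finset (V → α)}
    {U : Finset V} {g : V → α} : g ∈ good I S bad U ↔ ∀ i ∈ I, S i ⊆ U → g ∉ bad i := by
  simp [good]

theorem good_sdiff_le {ι : Type*} (I : Finset ι) (S : ι → Finset V) (bad : ι → Finset (V → α))
    (β : ℝ) (hβ0 : 0 ≤ β) (hβ1 : β ≤ 1) (n : ℕ)
    (IH : ∀ U : Finset V, U.card < n → ∀ v,
      β * ((good I S bad U).card : ℝ) ≤ (good I S bad (insert v U)).card)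
    (U : Finset V) (hU : U.card ≤ n) (W : Finset V) :
    β ^ W.card * ((good I S bad (U \ W)).card : ℝ) ≤ (good I S bad U).card := by
  induction W using Finset.induction_on with
  | empty => simp
  | insert w W hw ih =>
    rw [card_insert_of_notMem hw, pow_succ, mul_assoc]
    refine le_trans (mul_le_mul_of_nonneg_left ?_ (pow_nonneg hβ0 _)) ih
    by_cases hwU : w ∈ U
    · have h1 : insert w (U \ insert w W) = U \ W := by
        ext x
        simp only [mem_insert, mem_sdiff, not_or]
        constructor
        · rintro (rfl | h)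
          · exact ⟨hwU, hw⟩
          · exact ⟨h.1, h.2.2⟩
        · intro h
          by_cases hx : x = w
          · exact Or.inl hx
          · exact Or.inr ⟨h.1, hx, h.2⟩
      have h2 : (U \ insert w W).card < n := by
        refine lt_of_lt_of_le (card_lt_card ?_) hU
        refine ⟨sdiff_subset, fun h => ?_⟩
        have := h hwU
        simp at this
      have := IH _ h2 w
      rwa [h1] at this
    · have h1 : U \ insert w W = U \ W := by
        ext x
        simp only [mem_insert, mem_sdiff, not_or]
        constructor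
        · exact fun h => ⟨h.1, h.2.2⟩
        · exact fun h => ⟨h.1, fun hx => hwU (hx ▸ h.1), h.2⟩
      rw [h1]
      have : (0 : ℝ) ≤ (good I S bad (U \ W)).card := Nat.cast_nonneg _
      nlinarith

/-- Local lemma, variable version: events supported on at most `k` coordinates, such that the
probabilities of the events using any given coordinate add up to at most `1 / (4 k)`, can all be
avoided. -/
theorem exists_avoid {ι : Type*} [Nonempty α] (I : Finset ι) (S : ι → Finset V)
    (bad : ι → Finset (V → α)) (p : ι → ℝ) (k : ℕ) (hk : 1 ≤ k)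
    (hS : ∀ i ∈ I, (S i).card ≤ k) (hSne : ∀ i ∈ I, (S i).Nonempty)
    (hdep : ∀ i ∈ I, ∀ f g : V → α, (∀ v ∈ S i, f v = g v) → f ∈ bad i → g ∈ bad i)
    (hp : ∀ i ∈ I, ((bad i).card : ℝ) ≤ p i * Fintype.card (V → α))
    (hsum : ∀ v, ∑ i ∈ I.filter (fun i => v ∈ S i), p i ≤ 1 / (4 * k)) :
    ∃ g : V → α, ∀ i ∈ I, g ∉ bad i := by
  classical
  have hk' : (1 : ℝ) ≤ k := by exact_mod_cast hk
  have hkpos : (0 : ℝ) < k := by linarith
  set β : ℝ := 1 - 1 / (2 * k) with hβ
  have hε : 1 / (2 * (k : ℝ)) ≤ 1 / 2 := by
    apply one_div_le_one_div_of_le <;> linarith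
  have hε0 : 0 < 1 / (2 * (k : ℝ)) := by positivity
  have hβ0 : 0 < β := by linarith
  have hβ1 : β ≤ 1 := by linarith
  have hβk : 1 / 2 ≤ β ^ k := by
    have := one_add_mul_le_pow (a := -(1 / (2 * (k : ℝ)))) (by linarith) k
    have h2 : (1 : ℝ) + k * -(1 / (2 * (k : ℝ))) = 1 / 2 := by field_simp; ring
    rw [h2] at this
    simpa [hβ, sub_eq_add_neg] using this
  have hΩ : (0 : ℝ) < Fintype.card (V → α) := by exact_mod_cast Fintype.card_pos
  have key : ∀ n : ℕ, ∀ U : Finset V, U.card < n → ∀ v,
      β * ((good I S bad U).card : ℝ) ≤ (good I S bad (insert v U)).card := by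
    intro n
    induction n with
    | zero => intro U hU; omega
    | succ n ih =>
      intro U hU v
      have hU' : U.card ≤ n := by omega
      have hsub : good I S bad U ⊆ good I S bad (insert v U) ∪
          (I.filter (fun i => v ∈ S i)).biUnion (fun i => good I S bad (U \ S i) ∩ bad i) := by
        intro g hg
        rw [mem_union]
        by_cases h : g ∈ good I S bad (insert v U)
        · exact Or.inl h
        · right
          rw [mem_good] at h hg
          push Not at h
          obtain ⟨i, hi, hSi, hb⟩ := h
          rw [mem_biUnion]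
          refine ⟨i, mem_filter.2 ⟨hi, ?_⟩, mem_inter.2 ⟨?_, hb⟩⟩
          · by_contra hv
            exact hg i hi (fun x hx => by
              rcases mem_insert.1 (hSi hx) with rfl | h
              · exact absurd hx hv
              · exact h) hb
          · rw [mem_good]
            exact fun j hj hSj => hg j hj (hSj.trans sdiff_subset)
      have hterm : ∀ i ∈ I.filter (fun i => v ∈ S i),
          ((good I S bad (U \ S i) ∩ bad i).card : ℝ) ≤ p i * (2 * (good I S bad U).card) := by
        intro i hi
        have hi := (mem_filter.1 hi).1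
        have hind := card_inter_mul (S i) (good I S bad (U \ S i)) (bad i) (by
          intro f g hfg hf
          rw [mem_good] at hf ⊢
          intro j hj hSj hb
          refine hf j hj hSj (hdep j hj g f (fun x hx => ?_) hb)
          exact (hfg x (mem_sdiff.1 (hSj hx)).2).symm) (hdep i hi)
        have hind' : ((good I S bad (U \ S i) ∩ bad i).card : ℝ) * Fintype.card (V → α) =
            (good I S bad (U \ S i)).card * (bad i).card := by exact_mod_cast hind
        have h1 := good_sdiff_le I S bad β hβ0.le hβ1 n ih U hU' (S i)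
        have h2 : 1 / 2 ≤ β ^ (S i).card :=
          hβk.trans (pow_le_pow_of_le_one hβ0.le hβ1 (hS i hi))
        have h3 : (0 : ℝ) ≤ (good I S bad (U \ S i)).card := Nat.cast_nonneg _
        have h4 : ((good I S bad (U \ S i)).card : ℝ) ≤ 2 * (good I S bad U).card := by
          nlinarith
        have h5 := hp i hi
        have hp0 : 0 ≤ p i := by
          have : (0 : ℝ) ≤ (bad i).card := Nat.cast_nonneg _
          by_contra hneg
          push Not at hneg
          nlinarith
        have h6 : ((good I S bad (U \ S i) ∩ bad i).card : ℝ) ≤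
            p i * (good I S bad (U \ S i)).card := by
          refine le_of_mul_le_mul_right ?_ hΩ
          rw [hind']
          nlinarith
        exact h6.trans (mul_le_mul_of_nonneg_left h4 hp0)
      have hcard : ((good I S bad U).card : ℝ) ≤ (good I S bad (insert v U)).card +
          ∑ i ∈ I.filter (fun i => v ∈ S i), ((good I S bad (U \ S i) ∩ bad i).card : ℝ) := by
        have h1 := (card_le_card hsub).trans (card_union_le _ _)
        have h2 := h1.trans (Nat.add_le_add_left card_biUnion_le _)
        exact_mod_cast h2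
      have hs := sum_le_sum hterm
      rw [← sum_mul] at hs
      have h0 : (0 : ℝ) ≤ (good I S bad U).card := Nat.cast_nonneg _
      have h7 : (∑ i ∈ I.filter (fun i => v ∈ S i), p i) * (2 * (good I S bad U).card) ≤
          1 / (4 * k) * (2 * (good I S bad U).card) :=
        mul_le_mul_of_nonneg_right (hsum v) (by linarith)
      have h8 : 1 / (4 * (k : ℝ)) * (2 * (good I S bad U).card) =
          1 / (2 * k) * (good I S bad U).card := by field_simp; ring
      rw [hβ]
      linarith
  have hfin := good_sdiff_le I S bad β hβ0.le hβ1 (Fintype.card V + 1)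
    (key _) univ (by simp) univ
  have hempty : good I S bad ((univ : Finset V) \ univ) = univ := by
    ext g
    simp only [sdiff_self, mem_good, mem_univ, iff_true]
    intro i hi hSi
    obtain ⟨x, hx⟩ := hSne i hi
    simpa using hSi hx
  rw [hempty, card_univ (α := V → α)] at hfin
  have hpos : (0 : ℝ) < (good I S bad univ).card :=
    lt_of_lt_of_le (mul_pos (pow_pos hβ0 _) hΩ) hfin
  have hne : (good I S bad univ).Nonempty := by
    rw [← card_pos]; exact_mod_cast hpos
  obtain ⟨g, hg⟩ := hne
  exact ⟨g, fun i hi => mem_good.1 hg i hi (subset_univ _)⟩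

/-- Lower tail for the number of coordinates of a given colour in a set. -/
theorem card_unbalanced_le (S : Finset V) (c : Bool) :
    ((univ.filter (fun g : V → Bool => 4 * (S.filter (fun v => g v = c)).card < S.card)).card : ℝ)
      ≤ (9 / 10 : ℝ) ^ S.card * Fintype.card (V → Bool) := by
  set x : ℝ := 4 / 5 with hx
  have hsum : ∑ g : V → Bool, x ^ (4 * (S.filter (fun v => g v = c)).card) =
      ((1 + x ^ 4) / 2) ^ S.card * Fintype.card (V → Bool) := by
    have h1 : ∀ g : V → Bool, x ^ (4 * (S.filter (fun v => g v = c)).card) =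
        ∏ v, (if v ∈ S ∧ g v = c then x ^ 4 else 1) := by
      intro g
      rw [prod_ite, prod_const, prod_const_one, mul_one, pow_mul]
      congr 2
      ext v; simp
    simp_rw [h1]
    have h2 := Finset.prod_univ_sum (fun _ : V => (univ : Finset Bool))
      (fun v b => if v ∈ S ∧ b = c then x ^ 4 else 1)
    rw [Fintype.piFinset_univ] at h2
    rw [← h2]
    have h3 : ∀ v : V, ∑ b : Bool, (if v ∈ S ∧ b = c then x ^ 4 else 1) =
        (if v ∈ S then (1 + x ^ 4) / 2 else 1) * 2 := by
      intro v
      by_cases hv : v ∈ S <;> cases c <;> simp [hv, add_comm]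
    simp_rw [h3]
    rw [prod_mul_distrib, prod_ite, prod_const, prod_const_one, mul_one, prod_const]
    simp
  have hx0 : 0 < x := by norm_num [hx]
  have hx1 : x ≤ 1 := by norm_num [hx]
  have hle : ((univ.filter (fun g : V → Bool =>
      4 * (S.filter (fun v => g v = c)).card < S.card)).card : ℝ) * x ^ S.card ≤
      ∑ g : V → Bool, x ^ (4 * (S.filter (fun v => g v = c)).card) := by
    rw [← nsmul_eq_mul, ← sum_const]
    refine le_trans (sum_le_sum (fun g hg => ?_))
      (sum_le_sum_of_subset_of_nonneg (filter_subset _ _) (fun g _ _ => by positivity))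
    exact pow_le_pow_of_le_one hx0.le hx1 (mem_filter.1 hg).2.le
  rw [hsum] at hle
  have h9 : ((1 + x ^ 4) / 2) ^ S.card ≤ (9 / 10 : ℝ) ^ S.card * x ^ S.card := by
    rw [← mul_pow]
    apply pow_le_pow_left₀ (by positivity)
    norm_num [hx]
  have hΩ : (0 : ℝ) ≤ Fintype.card (V → Bool) := Nat.cast_nonneg _
  refine le_of_mul_le_mul_right ?_ (pow_pos hx0 S.card)
  calc _ ≤ _ := hle
    _ ≤ (9 / 10 : ℝ) ^ S.card * x ^ S.card * Fintype.card (V → Bool) :=
        mul_le_mul_of_nonneg_right h9 hΩ
    _ = _ := by ring

/-- Balanced two-colourings of a family of sets with small local weight. -/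
theorem exists_balanced (𝓢 : Finset (Finset V)) (k : ℕ) (hk : 1 ≤ k)
    (hS : ∀ S ∈ 𝓢, S.card ≤ k) (hSne : ∀ S ∈ 𝓢, S.Nonempty)
    (hsum : ∀ v, ∑ S ∈ 𝓢.filter (fun S => v ∈ S), 2 * (9 / 10 : ℝ) ^ S.card ≤ 1 / (4 * k)) :
    ∃ g : V → Bool, ∀ S ∈ 𝓢, ∀ c : Bool, S.card ≤ 4 * (S.filter (fun v => g v = c)).card := by
  obtain ⟨g, hg⟩ := exists_avoid (α := Bool) 𝓢 id
    (fun S => univ.filter (fun g : V → Bool =>
        4 * (S.filter (fun v => g v = true)).card < S.card) ∪
      univ.filter (fun g : V → Bool => 4 * (S.filter (fun v => g v = false)).card < S.card))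
    (fun S => 2 * (9 / 10 : ℝ) ^ S.card) k hk hS hSne (by
      intro S _ f g hfg hf
      have h : ∀ c : Bool, S.filter (fun v => f v = c) = S.filter (fun v => g v = c) :=
        fun c => filter_congr (fun v hv => by rw [hfg v hv])
      simp only [mem_union, mem_filter, mem_univ, true_and] at hf ⊢
      rwa [← h, ← h]) (by
      intro S _
      have h1 := card_unbalanced_le S true
      have h2 := card_unbalanced_le S false
      have h3 := card_union_le (univ.filter (fun g : V → Bool =>
        4 * (S.filter (fun v => g v = true)).card < S.card))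
        (univ.filter (fun g : V → Bool => 4 * (S.filter (fun v => g v = false)).card < S.card))
      have h4 := (Nat.cast_le (α := ℝ)).2 h3
      push_cast at h4
      linarith) hsum
  refine ⟨g, fun S hS c => ?_⟩
  have := hg S hS
  simp only [mem_union, mem_filter, mem_univ, true_and, not_or, not_lt] at this
  cases c
  · exact this.2
  · exact this.1

end Crest.Agent.Lib.LocalLemma
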